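import Vale.Agent.P268W88.Ana

/-!
# P268: polynomials as convergent power series; transfer of a counterexample
-/

noncomputable section

namespace Vale.Agent.P268W88

open Filter Topology MvPowerSeries

variable {N : ℕ}

theorem hasSum_poly (p : MvPolynomial (Fin N) ℂ) (z : Fin N → ℂ) :
    HasSum (term (p : MvPowerSeries (Fin N) ℂ) z) (MvPolynomial.eval z p) := by
  rw [MvPolynomial.eval_eq']
  have h1 : ∑ d ∈ p.support, p.coeff d * ∏ i, z i ^ d i =
      ∑ d ∈ p.support, term (p : MvPowerSeries (Fin N) ℂ) z d :=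
    Finset.sum_congr rfl fun d _ => by rw [term, MvPolynomial.coeff_coe]
  rw [h1]
  refine hasSum_sum_of_ne_finset_zero fun d hd => ?_
  rw [term, MvPolynomial.coeff_coe, MvPolynomial.notMem_support_iff.1 hd, zero_mul]

/-- a polynomial with integer coefficients as a convergent power series -/
def ofInt (p : MvPolynomial (Fin N) ℤ) : Cvg N :=
  ⟨(p.map (Int.castRingHom ℂ) : MvPolynomial (Fin N) ℂ),
    Eventually.of_forall fun z => (hasSum_poly _ z).summable⟩

theorem hasSum_ofInt (p : MvPolynomial (Fin N) ℤ) (z : Fin N → ℂ) :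
    HasSum (term (ofInt p).1 z) (MvPolynomial.aeval z p) := by
  have h := hasSum_poly (p.map (Int.castRingHom ℂ)) z
  rw [MvPolynomial.eval_map] at h
  exact h

theorem val_ofInt (p : MvPolynomial (Fin N) ℤ) :
    val (ofInt p) = fun z => MvPolynomial.aeval z p :=
  funext fun z => (hasSum_ofInt p z).tsum_eq

theorem coeff_ofInt (p : MvPolynomial (Fin N) ℤ) (a : Fin N →₀ ℕ) :
    coeff a (ofInt p).1 = ((p.coeff a : ℤ) : ℂ) := by
  rw [ofInt, MvPolynomial.coeff_coe, MvPolynomial.coeff_map]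
  rfl

theorem mem_V_ofInt (p : MvPolynomial (Fin N) ℤ) (z : Fin N → ℂ) :
    z ∈ V (ofInt p) ↔ MvPolynomial.aeval z p = 0 :=
  ⟨fun h => (hasSum_ofInt p z).unique h, fun h => by
    have h1 := hasSum_ofInt p z
    rw [h] at h1
    exact h1⟩

theorem amb_ofInt {p q : MvPolynomial (Fin N) ℤ} (φ : (Fin N → ℂ) ≃ₜ (Fin N → ℂ)) (h0 : φ 0 = 0)
    (h : ∀ z, MvPolynomial.aeval z p = 0 ↔ MvPolynomial.aeval (φ z) q = 0) :
    AmbHomeo (ofInt p) (ofInt q) := by
  refine ⟨Set.univ, Set.univ, trivial,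
    (Homeomorph.Set.univ _).trans (φ.trans (Homeomorph.Set.univ _).symm), isOpen_univ,
    isOpen_univ, fun z _ => (hasSum_ofInt p z).summable, fun z _ => (hasSum_ofInt q z).summable,
    h0, ?_⟩
  ext y
  constructor
  · rintro ⟨x, hx, rfl⟩
    exact (mem_V_ofInt q _).2 ((h x.1).1 ((mem_V_ofInt p _).1 hx))
  · intro hy
    refine ⟨⟨φ.symm y.1, trivial⟩, (mem_V_ofInt p _).2 ((h _).2 ?_),
      Subtype.ext (φ.apply_symm_apply y.1)⟩
    rw [φ.apply_symm_apply]
    exact (mem_V_ofInt q _).1 hy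

theorem order_of_sInf {f : Cvg N} {m : ℕ}
    (h : sInf {k : ℕ | iteratedFDeriv ℂ k (val f) 0 ≠ 0} = m) (hm : m ≠ 0) : f.1.order = m := by
  have hne : {k : ℕ | iteratedFDeriv ℂ k (val f) 0 ≠ 0}.Nonempty := by
    by_contra h0
    rw [Set.not_nonempty_iff_eq_empty] at h0
    rw [h0, Nat.sInf_empty] at h
    exact hm h.symm
  rw [order_iff, ← h]
  exact ⟨Nat.sInf_mem hne, fun k hk => Nat.sInf_le hk⟩

theorem isGerm_of_order {f : Cvg N} {m : ℕ} (h : f.1.order = m) (hm : m ≠ 0) : IsGerm f := by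
  constructor
  · rintro rfl
    simp at h
  · rw [← one_le_order_iff_constCoeff_eq_zero, h]
    exact_mod_cast Nat.one_le_iff_ne_zero.2 hm

end Vale.Agent.P268W88
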